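import Vale.Agent.P281.H64.TS.Spec

/-!
# P281, project T-S, block C2a (helper840): invariance of the integral under a diffeomorphism
-/

open Set Filter Metric MeasureTheory Vale.Agent.P272.K
open scoped Topology ContDiff ComplexConjugate ComplexOrder

noncomputable section

namespace Vale.Agent.P281.H840.TS

open Vale.Agent.P281.H64.TK Vale.Agent.P281.H64.TK.TS

section
variable {d : ℕ} {E Γ : Type} [TopologicalSpace E] [Group Γ] [MulAction Γ E]

/-- The image of the ball of radius `1` in the sheet `i`. -/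
def U (S : Sheets d E Γ) (i : Fin S.N) : Set E := S.σ i '' ball 0 1

/-- The image of the part `P i` of the ball of radius `1` in the sheet `i`. -/
def Q (S : Sheets d E Γ) (i : Fin S.N) : Set E := S.σ i '' S.P i

theorem injOn (S : Sheets d E Γ) (i : Fin S.N) : InjOn (S.σ i) (ball 0 3) := by
  intro z hz w hw h
  exact (S.inj i z hz w hw 1 (by rw [one_smul]; exact h)).2

theorem contAt (S : Sheets d E Γ) (i : Fin S.N) {z : Cm d} (hz : z ∈ ball (0 : Cm d) 3) :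
    ContinuousAt (S.σ i) z :=
  (S.map_nhds i z hz).le

theorem isOpen_image (S : Sheets d E Γ) (i : Fin S.N) {V : Set (Cm d)} (hV : IsOpen V)
    (hV3 : V ⊆ ball 0 3) : IsOpen (S.σ i '' V) := by
  rw [isOpen_iff_mem_nhds]
  rintro _ ⟨z, hz, rfl⟩
  rw [← S.map_nhds i z (hV3 hz)]
  exact image_mem_map (hV.mem_nhds hz)

theorem ball_sub : ball (0 : Cm d) 1 ⊆ ball 0 3 := ball_subset_ball (by norm_num)

theorem isOpen_U (S : Sheets d E Γ) (i : Fin S.N) : IsOpen (U S i) :=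
  isOpen_image S i isOpen_ball ball_sub

theorem P_sub (S : Sheets d E Γ) (i : Fin S.N) : S.P i ⊆ ball 0 1 := by
  intro z hz
  simpa using hz.1

theorem mem_P [Subsingleton Γ] (S : Sheets d E Γ) (i : Fin S.N) (z : Cm d) :
    z ∈ S.P i ↔ z ∈ ball (0 : Cm d) 1 ∧ ∀ j, j < i → S.σ i z ∉ U S j := by
  constructor
  · intro hz
    refine ⟨P_sub S i hz, ?_⟩
    rintro j hj ⟨w, hw, h⟩
    refine hz.2 j hj 1 w (by simpa using hw) ?_
    rw [one_smul]; exact h
  · rintro ⟨hz, h⟩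
    refine ⟨by simpa using hz, ?_⟩
    intro j hj γ w hw h'
    refine h j hj ⟨w, by simpa using hw, ?_⟩
    rw [← h', Subsingleton.elim γ 1, one_smul]

theorem mem_Q [Subsingleton Γ] (S : Sheets d E Γ) (i : Fin S.N) (e : E) :
    e ∈ Q S i ↔ e ∈ U S i ∧ ∀ j, j < i → e ∉ U S j := by
  constructor
  · rintro ⟨z, hz, rfl⟩
    rw [mem_P] at hz
    exact ⟨⟨z, hz.1, rfl⟩, hz.2⟩
  · rintro ⟨⟨z, hz, rfl⟩, h⟩
    exact ⟨z, (mem_P S i z).2 ⟨hz, h⟩, rfl⟩

theorem exists_Q [Subsingleton Γ] (S : Sheets d E Γ) (e : E) : ∃ i, e ∈ Q S i := by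
  classical
  obtain ⟨γ, i, z, hz, h⟩ := S.cover e
  have hne : (Finset.univ.filter fun i => e ∈ U S i).Nonempty := by
    refine ⟨i, ?_⟩
    simp only [Finset.mem_filter, Finset.mem_univ, true_and]
    refine ⟨z, by simpa using hz, ?_⟩
    rw [← h, Subsingleton.elim γ 1, one_smul]
  refine ⟨Finset.min' _ hne, ?_⟩
  rw [mem_Q]
  constructor
  · have := Finset.min'_mem _ hne
    simpa using this
  · intro j hj hj'
    have := Finset.min'_le (Finset.univ.filter fun i => e ∈ U S i) j (by simpa using hj')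
    exact absurd this (not_le.2 hj)

theorem disj_Q [Subsingleton Γ] (S : Sheets d E Γ) {i j : Fin S.N} (hij : i ≠ j) :
    Disjoint (Q S i) (Q S j) := by
  rw [Set.disjoint_left]
  intro e he he'
  rw [mem_Q] at he he'
  rcases lt_or_gt_of_ne hij with h | h
  · exact he'.2 i h he.1
  · exact he.2 j h he'.1

/-- The preimage in the sheet `i` of an open set of `E`. -/
theorem isOpen_pre (S : Sheets d E Γ) (i : Fin S.N) {V : Set E} (hV : IsOpen V) :
    IsOpen (ball (0 : Cm d) 1 ∩ S.σ i ⁻¹' V) := by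
  have : ContinuousOn (S.σ i) (ball 0 1) := fun z hz =>
    (contAt S i (ball_sub hz)).continuousWithinAt
  exact this.isOpen_inter_preimage isOpen_ball hV

theorem meas_pre_U (S : Sheets d E Γ) (i : Fin S.N) {V : Set E} (hV : IsOpen V) :
    MeasurableSet (ball (0 : Cm d) 1 ∩ S.σ i ⁻¹' V) := (isOpen_pre S i hV).measurableSet

/-- `ball 0 1 ∩ σ_i⁻¹ (V \ ⋃_k W_k)` is measurable. -/
theorem meas_diff (S : Sheets d E Γ) (i : Fin S.N) {V : Set E} (hV : IsOpen V) {W : Set E}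
    (hW : IsOpen W) : MeasurableSet (ball (0 : Cm d) 1 ∩ S.σ i ⁻¹' (V \ W)) := by
  have : ball (0 : Cm d) 1 ∩ S.σ i ⁻¹' (V \ W) =
      (ball (0 : Cm d) 1 ∩ S.σ i ⁻¹' V) \ (ball (0 : Cm d) 1 ∩ S.σ i ⁻¹' W) := by
    ext z
    simp only [mem_inter_iff, mem_preimage, mem_diff]
    tauto
  rw [this]
  exact (meas_pre_U S i hV).diff (meas_pre_U S i hW)

theorem Q_eq [Subsingleton Γ] (S : Sheets d E Γ) (i : Fin S.N) :
    Q S i = U S i \ ⋃ j, ⋃ (_ : j < i), U S j := by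
  ext e
  rw [mem_Q]
  simp

theorem P_eq [Subsingleton Γ] (S : Sheets d E Γ) (i : Fin S.N) :
    S.P i = ball 0 1 ∩ S.σ i ⁻¹' (Q S i) := by
  ext z
  rw [mem_P, mem_inter_iff, mem_preimage, mem_Q]
  constructor
  · rintro ⟨h1, h2⟩
    exact ⟨h1, ⟨z, h1, rfl⟩, h2⟩
  · rintro ⟨h1, -, h2⟩
    exact ⟨h1, h2⟩

theorem meas_P [Subsingleton Γ] (S : Sheets d E Γ) (i : Fin S.N) : MeasurableSet (S.P i) := by
  rw [P_eq, Q_eq]
  exact meas_diff S i (isOpen_U S i) (isOpen_iUnion fun j => isOpen_iUnion fun _ => isOpen_U S j)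

end

section
variable {d : ℕ} {E Γ : Type} [TopologicalSpace E] [Group Γ] [MulAction Γ E]
variable {E' Γ' : Type} [TopologicalSpace E'] [Group Γ'] [MulAction Γ' E']

/-- The piece of `P i` which goes to `P' j`. -/
def R (S : Sheets d E Γ) (S' : Sheets d E' Γ') (τ : E → E') (i : Fin S.N) (j : Fin S'.N) :
    Set (Cm d) := {z | z ∈ S.P i ∧ τ (S.σ i z) ∈ Q S' j}

theorem meas_R [Subsingleton Γ] [Subsingleton Γ'] (S : Sheets d E Γ) (S' : Sheets d E' Γ')
    (τ : E ≃ₜ E') (i : Fin S.N) (j : Fin S'.N) : MeasurableSet (R S S' τ i j) := by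
  have h1 : R S S' τ i j = S.P i ∩ (ball 0 1 ∩ S.σ i ⁻¹' (τ ⁻¹' (U S' j) \
      τ ⁻¹' (⋃ k, ⋃ (_ : k < j), U S' k))) := by
    ext z
    have : z ∈ S.P i → z ∈ ball (0 : Cm d) 1 := fun h => P_sub S i h
    simp only [R, Q_eq, mem_setOf_eq, mem_inter_iff, mem_preimage, mem_diff]
    tauto
  rw [h1]
  refine (meas_P S i).inter (meas_diff S i ((isOpen_U S' j).preimage τ.continuous) ?_)
  exact (isOpen_iUnion fun k => isOpen_iUnion fun _ => isOpen_U S' k).preimage τ.continuous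

theorem union_R [Subsingleton Γ'] (S : Sheets d E Γ) (S' : Sheets d E' Γ')
    (τ : E → E') (i : Fin S.N) : S.P i = ⋃ j, R S S' τ i j := by
  ext z
  simp only [R, mem_iUnion, mem_setOf_eq]
  constructor
  · intro h
    obtain ⟨j, hj⟩ := exists_Q S' (τ (S.σ i z))
    exact ⟨j, h, hj⟩
  · rintro ⟨j, h, -⟩
    exact h

theorem disj_R [Subsingleton Γ'] (S : Sheets d E Γ) (S' : Sheets d E' Γ')
    (τ : E → E') (i : Fin S.N) : Pairwise (Function.onFun Disjoint fun j => R S S' τ i j) := by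
  intro j k hjk
  rw [Function.onFun, Set.disjoint_left]
  intro z hz hz'
  exact Set.disjoint_left.1 (disj_Q S' hjk) hz.2 hz'.2

theorem integ (S : Sheets d E Γ) (i : Fin S.N) {D : Cm d → ℂ}
    (hD : ContinuousOn D (ball 0 3)) {V : Set (Cm d)} (hV : V ⊆ ball 0 1) :
    IntegrableOn D V := by
  have h1 : IntegrableOn D (closedBall (0 : Cm d) 1) :=
    (hD.mono (closedBall_subset_ball (by norm_num))).integrableOn_compact
      (isCompact_closedBall 0 1)
  exact h1.mono_set (hV.trans ball_subset_closedBall)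

theorem int_split [Subsingleton Γ] [Subsingleton Γ'] (S : Sheets d E Γ) (S' : Sheets d E' Γ')
    (τ : E ≃ₜ E') (D : Fin S.N → Cm d → ℂ) (hD : ∀ i, ContinuousOn (D i) (ball 0 3)) :
    S.int D = ∑ i, ∑ j, ∫ z in R S S' τ i j, D i z := by
  unfold Sheets.int
  refine Finset.sum_congr rfl fun i _ => ?_
  rw [union_R S S' τ i, integral_iUnion_fintype (fun j => meas_R S S' τ i j) (disj_R S S' τ i)]
  intro j
  exact integ S i (hD i) (fun z hz => P_sub S i hz.1)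

/-- Change of variables on a piece. -/
theorem piece [Subsingleton Γ] [Subsingleton Γ'] (S : Sheets d E Γ) (S' : Sheets d E' Γ')
    (τ : E ≃ₜ E') (D : Fin S.N → Cm d → ℂ) (D' : Fin S'.N → Cm d → ℂ) (hd : Dif S S' τ)
    (hDD : ∀ i j, ∀ z ∈ ball (0 : Cm d) 3, ∀ z' ∈ ball (0 : Cm d) 3, ∀ ψ, Tr S S' τ i j z z' ψ →
      D i z = D' j z' * ((fderiv ℝ ψ z).det : ℂ)) (i : Fin S.N) (j : Fin S'.N) :
    ∫ z in R S S' τ i j, D i z = ∫ z in R S' S τ.symm j i, D' j z := by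
  classical
  -- the transition map
  let f : Cm d → Cm d := Function.invFunOn (S'.σ j) (ball 0 3) ∘ τ ∘ S.σ i
  have hf : ∀ z, (∃ w ∈ ball (0 : Cm d) 3, τ (S.σ i z) = S'.σ j w) →
      f z ∈ ball (0 : Cm d) 3 ∧ τ (S.σ i z) = S'.σ j (f z) := by
    rintro z ⟨w, hw, h⟩
    have h1 : ∃ a ∈ ball (0 : Cm d) 3, S'.σ j a = τ (S.σ i z) := ⟨w, hw, h.symm⟩
    exact ⟨Function.invFunOn_mem h1, (Function.invFunOn_eq h1).symm⟩
  have hf' : ∀ z w, w ∈ ball (0 : Cm d) 3 → τ (S.σ i z) = S'.σ j w → f z = w := by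
    intro z w hw h
    obtain ⟨h1, h2⟩ := hf z ⟨w, hw, h⟩
    exact injOn S' j h1 hw (h2.symm.trans h)
  -- local description
  have hloc : ∀ z ∈ R S S' τ i j, ∃ ψ, Tr S S' τ i j z (f z) ψ ∧ 0 < (fderiv ℝ ψ z).det ∧
      f =ᶠ[𝓝 z] ψ ∧ f z ∈ S'.P j := by
    intro z hz
    obtain ⟨hz1, w, hw, hwz⟩ := hz
    have hz3 : z ∈ ball (0 : Cm d) 3 := ball_sub (P_sub S i hz1)
    have hw3 : w ∈ ball (0 : Cm d) 3 := ball_sub (P_sub S' j hw)
    have hfz : f z = w := hf' z w hw3 hwz.symm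
    obtain ⟨ψ, hψ, hdet⟩ := hd i j z hz3 w hw3 hwz.symm
    refine ⟨ψ, by rw [hfz]; exact hψ, hdet, ?_, by rw [hfz]; exact hw⟩
    have hψc : ContinuousAt ψ z := hψ.1.continuousAt
    have hb : ∀ᶠ u in 𝓝 z, ψ u ∈ ball (0 : Cm d) 3 := by
      refine hψc.eventually ?_
      rw [hψ.2.1]
      exact isOpen_ball.mem_nhds hw3
    filter_upwards [hb, hψ.2.2] with u hu hu'
    exact hf' u (ψ u) hu hu'
  have hder : ∀ z ∈ R S S' τ i j, HasFDerivWithinAt f (fderiv ℝ f z) (R S S' τ i j) z := by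
    intro z hz
    obtain ⟨ψ, hψ, -, he, -⟩ := hloc z hz
    have : DifferentiableAt ℝ ψ z := hψ.1.differentiableAt (by simp)
    exact (he.differentiableAt_iff.2 this).hasFDerivAt.hasFDerivWithinAt
  have hinj : InjOn f (R S S' τ i j) := by
    intro z hz w hw h
    obtain ⟨-, -, -, -, -⟩ := hloc z hz
    have h1 : ∃ v ∈ ball (0 : Cm d) 3, τ (S.σ i z) = S'.σ j v := by
      obtain ⟨v, hv, hv'⟩ := hz.2
      exact ⟨v, ball_sub (P_sub S' j hv), hv'.symm⟩
    have h2 : ∃ v ∈ ball (0 : Cm d) 3, τ (S.σ i w) = S'.σ j v := by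
      obtain ⟨v, hv, hv'⟩ := hw.2
      exact ⟨v, ball_sub (P_sub S' j hv), hv'.symm⟩
    have h3 : τ (S.σ i z) = τ (S.σ i w) := by rw [(hf z h1).2, (hf w h2).2, h]
    exact injOn S i (ball_sub (P_sub S i hz.1)) (ball_sub (P_sub S i hw.1)) (τ.injective h3)
  have himg : f '' R S S' τ i j = R S' S τ.symm j i := by
    ext w
    constructor
    · rintro ⟨z, hz, rfl⟩
      obtain ⟨ψ, hψ, -, -, hP⟩ := hloc z hz
      refine ⟨hP, ?_⟩
      have h1 : ∃ v ∈ ball (0 : Cm d) 3, τ (S.σ i z) = S'.σ j v := by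
        obtain ⟨v, hv, hv'⟩ := hz.2
        exact ⟨v, ball_sub (P_sub S' j hv), hv'.symm⟩
      rw [← (hf z h1).2, Homeomorph.symm_apply_apply]
      exact ⟨z, hz.1, rfl⟩
    · rintro ⟨hw, z, hz, hzw⟩
      have h1 : τ (S.σ i z) = S'.σ j w := by rw [hzw, Homeomorph.apply_symm_apply]
      refine ⟨z, ⟨hz, w, hw, h1.symm⟩, ?_⟩
      exact hf' z w (ball_sub (P_sub S' j hw)) h1
  rw [← himg, integral_image_eq_integral_abs_det_fderiv_smul volume (meas_R S S' τ i j) hder hinj]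
  refine setIntegral_congr_fun (meas_R S S' τ i j) ?_
  intro z hz
  obtain ⟨ψ, hψ, hdet, he, hP⟩ := hloc z hz
  have h1 := hDD i j z (ball_sub (P_sub S i hz.1)) (f z) (ball_sub (P_sub S' j hP)) ψ hψ
  simp only
  rw [h1, he.fderiv_eq, abs_of_pos hdet, Complex.real_smul, mul_comm]

end

/-- **C2a**. -/
theorem intInv : IntInvStmt := by
  intro d E Γ _ _ _ _ _ _ S E' Γ' _ _ _ _ _ _ S' τ D D' _ hdif hD hD' hDD
  rw [int_split S S' τ D hD, int_split S' S τ.symm D' hD', Finset.sum_comm]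
  refine Finset.sum_congr rfl fun j _ => Finset.sum_congr rfl fun i _ => ?_
  exact piece S S' τ D D' hdif hDD i j

end Vale.Agent.P281.H840.TS
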